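import Vale.Agent.Lib.P002.G1Defs

/-!
# P002, pool piece G1-F: complex numbers with prescribed product avoiding finitely many values
-/

namespace Vale.Agent.Lib.P002.H33

open Matrix
open Vale.Agent.Lib.P002

theorem g1_numbers (k : ℕ) (q : Fin (k + 1) → ℂ) (c f : ℂ) (hq : ∀ i, q i ≠ 0) (hc : c ≠ 0)
    (hqc : ∏ i, q i ≠ c) :
    ∃ p : Fin (k + 1) → ℂ, (∀ i, p i ≠ 0) ∧ ∏ i, p i = c ∧ (∀ i, p i ≠ q i) ∧
      (1 ≤ k → p 0 ≠ f) := by
  classical
  have hQ : ∏ i, q i = q 0 * ∏ i : Fin k, q i.succ := Fin.prod_univ_succ q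
  set Q' : ℂ := ∏ i : Fin k, q i.succ with hQ'
  have hQ'0 : Q' ≠ 0 := Finset.prod_ne_zero_iff.mpr (fun i _ => hq i.succ)
  -- the polynomial whose roots are to be avoided
  let A : Polynomial ℂ := Polynomial.C (q 0 * Q') * Polynomial.X ^ k - Polynomial.C c
  let B : Polynomial ℂ := Polynomial.C (f * Q') * Polynomial.X ^ k - Polynomial.C c
  let R : Polynomial ℂ := if 1 ≤ k then B else 1
  have hA : A ≠ 0 := by
    intro h
    have h' := congrArg (Polynomial.eval 0) h
    simp only [A, Polynomial.eval_sub, Polynomial.eval_mul, Polynomial.eval_C,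
      Polynomial.eval_pow, Polynomial.eval_X, Polynomial.eval_zero] at h'
    rcases Nat.eq_zero_or_pos k with hk | hk
    · have e0 : (0 : ℂ) ^ k = 1 := by rw [hk, pow_zero]
      rw [e0, mul_one] at h'
      exact hqc (by rw [hQ]; exact sub_eq_zero.mp h')
    · rw [zero_pow hk.ne', mul_zero, zero_sub] at h'
      exact hc (neg_eq_zero.mp h')
  have hB : 1 ≤ k → B ≠ 0 := by
    intro hk h
    have h' := congrArg (Polynomial.eval 0) h
    simp only [B, Polynomial.eval_sub, Polynomial.eval_mul, Polynomial.eval_C,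
      Polynomial.eval_pow, Polynomial.eval_X, Polynomial.eval_zero] at h'
    rw [zero_pow (by omega), mul_zero, zero_sub] at h'
    exact hc (neg_eq_zero.mp h')
  have hR : R ≠ 0 := by
    by_cases hk : 1 ≤ k
    · have e : R = B := if_pos hk
      rw [e]; exact hB hk
    · have e : R = 1 := if_neg hk
      rw [e]; exact one_ne_zero
  have hP0 : Polynomial.X * (Polynomial.X - Polynomial.C 1) * A * R ≠ 0 :=
    mul_ne_zero (mul_ne_zero (mul_ne_zero Polynomial.X_ne_zero
      (Polynomial.X_sub_C_ne_zero 1)) hA) hR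
  obtain ⟨x, hx⟩ := Infinite.exists_notMem_finset
    (Polynomial.X * (Polynomial.X - Polynomial.C 1) * A * R).roots.toFinset
  have hxP : (Polynomial.X * (Polynomial.X - Polynomial.C 1) * A * R).eval x ≠ 0 := fun h0 =>
    hx (Multiset.mem_toFinset.mpr ((Polynomial.mem_roots hP0).mpr h0))
  rw [Polynomial.eval_mul, Polynomial.eval_mul, Polynomial.eval_mul] at hxP
  have hx0 : x ≠ 0 := by
    intro h; apply hxP; rw [Polynomial.eval_X, h]; simp
  have hx1 : x ≠ 1 := by
    intro h; apply hxP
    rw [Polynomial.eval_sub, Polynomial.eval_X, Polynomial.eval_C, h]; simp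
  have hxA : q 0 * Q' * x ^ k ≠ c := by
    intro h; apply hxP
    have e : A.eval x = 0 := by
      simp only [A, Polynomial.eval_sub, Polynomial.eval_mul, Polynomial.eval_C,
        Polynomial.eval_pow, Polynomial.eval_X]
      rw [h, sub_self]
    rw [e]; simp
  have hxB : 1 ≤ k → f * Q' * x ^ k ≠ c := by
    intro hk h; apply hxP
    have e : R.eval x = 0 := by
      have e1 : R = B := if_pos hk
      rw [e1]
      simp only [B, Polynomial.eval_sub, Polynomial.eval_mul, Polynomial.eval_C,
        Polynomial.eval_pow, Polynomial.eval_X]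
      rw [h, sub_self]
    rw [e]; simp
  have hxk : x ^ k ≠ 0 := pow_ne_zero k hx0
  have hden : x ^ k * Q' ≠ 0 := mul_ne_zero hxk hQ'0
  refine ⟨(Fin.cons (c / (x ^ k * Q')) (fun i => x * q i.succ) : Fin (k + 1) → ℂ),
    ?_, ?_, ?_, ?_⟩
  · intro i
    refine Fin.cases ?_ (fun j => ?_) i
    · rw [Fin.cons_zero]; exact div_ne_zero hc hden
    · rw [Fin.cons_succ]; exact mul_ne_zero hx0 (hq j.succ)
  · rw [Fin.prod_univ_succ]
    simp only [Fin.cons_zero, Fin.cons_succ]
    rw [Finset.prod_mul_distrib, Finset.prod_const, Finset.card_univ, Fintype.card_fin, ← hQ']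
    field_simp
  · intro i
    refine Fin.cases ?_ (fun j => ?_) i
    · rw [Fin.cons_zero]
      intro h
      apply hxA
      rw [← h]; field_simp
    · rw [Fin.cons_succ]
      intro h
      apply hx1
      have h2 : (x - 1) * q j.succ = 0 := by linear_combination h
      rcases mul_eq_zero.mp h2 with h3 | h3
      · exact sub_eq_zero.mp h3
      · exact absurd h3 (hq j.succ)
  · intro hk
    rw [Fin.cons_zero]
    intro h
    apply hxB hk
    rw [← h]; field_simp

end Vale.Agent.Lib.P002.H33
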